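import Vale.Agent.P146.U.Spec

/-!
# P146, upper half: statements of the module EX3 (the L-side)

`G (T, b) = P2 n β x T b - P2 n β x T x`, `s = T / x²`, unit `n x⁴ b (b / x)^7`.

* `Low3`, `Slope3`, `Zero3`: the structural facts on `P3` (convexity, gradient at the junction).
* `Sel3`: **one step of the L-side**: at a scale `s ≥ s0` an exponent `b ≤ x s^(1/100)` cannot have
  an increment `P2_T (b) - P2_(T/2) (b)` above `k0 n x⁴ b (b/x)^7 s^(-1/2000)`, if the functional at the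
  exponents between `b s^(1/1000)` and `b s^(1/60)` is under control.
* `KOut`: the output of the K-side (EX2). `ApOut`: the a priori bound (AP3). `Conc`: (B) of the
  board. `Ex3`: the output of EX3.
-/

namespace Vale.Agent.P146.U.E3

/-- the value at the trivial window exponent -/
def Zero3 : Prop := ∀ (n : ℕ) (β x y τ T : ℝ), 0 < x → 0 < y → 0 ≤ τ → 0 ≤ T → τ + T ≤ 1 →
  P3 n β y τ x T x = P2 n β x τ y

/-- **Lower bound** by convexity in the exponent of the window `[1 - T, 1 - T/2]`. -/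
def Low3 : Prop := ∀ (n : ℕ) (β x b y a T : ℝ), 0 < x → x < b → b ≤ y → 2 * b ≤ a → 0 < T → T ≤ 1 →
  P2 n β x T b + a / (2 * b) * (P2 n β x T b - P2 n β x (T / 2) b) ≤ P3 n β y (T / 2) x (T / 2) a

/-- **Upper bound** of a short window by the gradient at the junction `1 - τ`. -/
def Slope3 : Prop := ∀ (n : ℕ) (β x y a τ T : ℝ), 0 < x → x ≤ a → x ≤ y → 2 * y ≤ a → 0 < τ →
  0 ≤ T → τ + T ≤ 1 →
  P3 n β y τ x T a - P3 n β y τ x T x ≤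
    a * T / (y * τ) * (P2 n β x (τ + T) a - P2 n β x (τ + T) x)

/-- **One step of the L-side.** -/
def Sel3 (β : ℝ) : Prop := ∀ K k0 : ℝ, 1 ≤ K → 0 < k0 → ∃ s0 : ℝ, ∃ n0 : ℕ, 1 ≤ s0 ∧
  ∀ n : ℕ, n0 ≤ n → ∀ x b T : ℝ,
    (n : ℝ) ^ (-(1 / 6) : ℝ) ≤ x → x ≤ (n : ℝ) ^ (-(1 / 10) : ℝ) → x < b →
    b / x ≤ (T / x ^ 2) ^ (1 / 100 : ℝ) → s0 ≤ T / x ^ 2 → T ≤ 1 / 2 →
    (∀ a : ℝ, b * (T / x ^ 2) ^ (1 / 1000 : ℝ) ≤ a → a ≤ b * (T / x ^ 2) ^ (1 / 60 : ℝ) →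
      P2 n β x T a - P2 n β x T x ≤ K * (n * x ^ 4 * a * (a / x) ^ 7)) →
    P2 n β x T b - P2 n β x (T / 2) b ≤
      k0 * (n * x ^ 4 * b * (b / x) ^ 7) * (T / x ^ 2) ^ (-(1 / 2000) : ℝ)

/-- **Output of EX2** (K-side), for `T ≥ x²` (`s ≥ 1`). -/
def KOut (β : ℝ) : Prop := ∃ C : ℝ, ∃ n0 : ℕ, 0 < C ∧ ∀ n : ℕ, n0 ≤ n → ∀ x b T : ℝ,
    (n : ℝ) ^ (-(1 / 6) : ℝ) ≤ x → x ≤ b → b ≤ (n : ℝ) ^ (-(1 / 10) : ℝ) →
    x ^ 2 ≤ T → T ≤ (n : ℝ) ^ (-(1 / 10) : ℝ) →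
    P2 n β x T b - P2 n β x T x ≤ C * (n * x ^ 4 * b * (b / x) ^ 5 * (T / x ^ 2) ^ (1 / 100 : ℝ))

/-- **A priori bound** (from `FluctOrder`): every exponent above `n^(-1/6+1/1000)`. -/
def ApOut (β : ℝ) : Prop := ∃ C : ℝ, ∃ n0 : ℕ, 0 < C ∧ ∀ n : ℕ, n0 ≤ n → ∀ x b T : ℝ,
    0 < x → x ≤ b → (n : ℝ) ^ (-(1 / 6) + 1 / 10000 : ℝ) ≤ b → b ≤ (n : ℝ) ^ (-(1 / 20) : ℝ) →
    0 ≤ T → T ≤ 1 → P2 n β x T b - P2 n β x T x ≤ C * (n * b ^ 5)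

/-- **(B)**: halving the window costs at most a factor `2` (concavity in `T`). -/
def Conc (β : ℝ) : Prop := ∀ (n : ℕ) (x b T : ℝ), 0 < x → x < b → b < 1 → 0 ≤ T → T ≤ 1 →
  P2 n β x T b - P2 n β x T x ≤ 2 * (P2 n β x (T / 2) b - P2 n β x (T / 2) x)

/-- **Output of EX3.** -/
def Ex3 (β : ℝ) : Prop := ∃ C : ℝ, ∃ n0 : ℕ, 0 < C ∧ ∀ n : ℕ, n0 ≤ n → ∀ x : ℝ,
    (n : ℝ) ^ (-(1 / 6) : ℝ) ≤ x → x ≤ (n : ℝ) ^ (-(1 / 10) : ℝ) →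
    P2 n β x 1 (2 * x) - P2 n β x 1 x ≤ C * (n * x ^ 5)

end Vale.Agent.P146.U.E3
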